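import Vale.Agent.N046.Fin

set_option autoImplicit false

open scoped Classical
open Filter Vale.Agent.P046

/-- Random triangle removal on `K_n`: the degrees of the final graph.
(1) Every vertex of the final graph has degree `(1 + o(1)) √(n/2)` with high probability.
(2) With high probability all but `o(n)` vertices have degree `(1 + o(1)) √(n/2)`.
(3) The number of neighbours of a vertex `v` in a set `A` of vertices is `|A| / √(2n) + o(√n)` in
mean, uniformly in `v` and `A`. -/
theorem Vale.Agent.Results.P046.A0Degrees.result :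
    -- (1) the degree of each vertex
    (∀ ε : ℝ, 0 < ε → ∀ᶠ n : ℕ in atTop, ∀ v : Fin n,
      ((finalGraph n).toOuterMeasure {G | ε ≤ |(G.degree v : ℝ) / √(n / 2) - 1|}).toReal ≤ ε) ∧
    -- (2) the final graph is almost regular
    (∀ ε : ℝ, 0 < ε → Tendsto (fun n : ℕ => ((finalGraph n).toOuterMeasure
      {G | ε * n ≤ ((Finset.univ.filter fun v : Fin n =>
        ε ≤ |(G.degree v : ℝ) / √(n / 2) - 1|).card : ℝ)}).toReal) atTop (nhds 0)) ∧
    -- (3) the neighbours in a given set
    (∀ ε : ℝ, 0 < ε → ∀ᶠ n : ℕ in atTop, ∀ (v : Fin n) (A : Finset (Fin n)),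
      ∑ G, (finalGraph n G).toReal *
        |((A.filter fun u => G.Adj v u).card : ℝ) - A.card / √(2 * n)| ≤ ε * √n) :=
  ⟨Vale.Agent.N046.deg_prob, Vale.Agent.N046.most_deg, Vale.Agent.N046.nb_l1⟩
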